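import Vale.Agent.P192.Growth.Pattern

/-! The cyclic cover of the glued graph gives a map onto the integers from a finite-index subgroup. -/

namespace Vale.Agent.P192.Growth

open Vale.Agent.P196

variable {G X : Type*} [Group G] [MulAction G X] {S : Set G}
variable {O : Set X} {d : X → ℕ} {r k l : ℕ}

lemma shift_inv (I : AnnIso S O d r k l) {y : X} (hy : y ∈ annulus O d r l) :
    d y + k = d (I.η y) + l := by
  have := I.shift _ (I.η_mem y hy)
  rwa [I.θη y hy] at this

/-- The sheet to which a point of the tube folds. -/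
def hgt (d : X → ℕ) (k l : ℕ) (y : X) : ℤ := if d y < k then -1 else if l ≤ d y then 1 else 0

lemma fold_step_hgt (I : AnnIso S O d r k l) (L : Levels S O d) (hkl : k + 2 * r < l) {u : G}
    (hu : u ∈ S ∨ u⁻¹ ∈ S) {y : X} (hy : y ∈ tube O d r k l) (huy : u • y ∈ tube O d r k l) :
    hgt d k l y + hgt d k l (u • I.fold y) = hgt d k l (u • y) := by
  obtain ⟨hO, h1, h2⟩ := hy
  obtain ⟨hO', h1', h2'⟩ := huy
  obtain ⟨-, s1, s2⟩ := L.both hu hO
  rcases lt_or_ge (d y) k with ha | ha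
  · have hA : y ∈ annulus O d r k := ⟨hO, h1, by omega⟩
    have hB : u • y ∈ annulus O d r k := ⟨hO', h1', by omega⟩
    have hs := I.shift _ hB
    have e : I.fold y = I.θ y := by simp only [AnnIso.fold, if_pos ha]
    rw [e, I.move_θ hu hA hB]
    simp only [hgt]
    split_ifs <;> omega
  rcases lt_or_ge (d y) l with hb | hb
  · rw [I.fold_eq ⟨hO, ha, hb⟩]
    simp only [hgt]
    split_ifs <;> omega
  · have hA : y ∈ annulus O d r l := ⟨hO, by omega, by omega⟩
    have hB : u • y ∈ annulus O d r l := ⟨hO', by omega, by omega⟩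
    have hs := shift_inv I hB
    have e : I.fold y = I.η y := by
      simp only [AnnIso.fold, if_neg (not_lt.mpr ha), if_pos hb]
    rw [e, I.move_η hu hA hB]
    simp only [hgt]
    split_ifs <;> omega

/-- An infinite orbit with infinitely many bounded spheres makes a finitely presented group virtually indicable. -/
theorem virtually_indicable [Group.IsFinitelyPresented G] (S : Finset G)
    (hS : Subgroup.closure (S : Set G) = ⊤) (x : X) (C : ℕ)
    (hsphere : ∀ N : ℕ, ∃ n, N ≤ n ∧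
      (ball (S : Set G) x (n + 1) \ ball (S : Set G) x n).ncard ≤ C)
    (hinf : ¬ {y : X | ∃ g : G, g • x = y}.Finite) :
    ∃ H : Subgroup G, H.FiniteIndex ∧ ∃ f : H →* Multiplicative ℤ, f ≠ 1 := by
  classical
  obtain ⟨O, d, r, k, l, I, R, L, hkl, hr, hfin, hR, hlen, hgen, hpred, z0, hz0, hdz0⟩ :=
    (exists_gluing S hS x C hsphere).resolve_left hinf
  have : Finite (slab O d k l) := hfin
  have hinv : ∀ {u : G}, (u ∈ (S : Set G) ∨ u⁻¹ ∈ (S : Set G)) →
      (u⁻¹ ∈ (S : Set G) ∨ u⁻¹⁻¹ ∈ (S : Set G)) := fun h => by rw [inv_inv]; exact h.symm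
  let Z := slab O d k l × ℤ
  let mv : (u : G) → (u ∈ (S : Set G) ∨ u⁻¹ ∈ (S : Set G)) → Z → Z := fun u hu p =>
    (⟨I.fold (u • (p.1 : X)), I.fold_mem hkl (slab_move L hr hu p.1.2)⟩,
      p.2 + hgt d k l (u • (p.1 : X)))
  have hcanc : ∀ (u : G) (hu : u ∈ (S : Set G) ∨ u⁻¹ ∈ (S : Set G))
      (hu' : u⁻¹ ∈ (S : Set G) ∨ u⁻¹⁻¹ ∈ (S : Set G)) (p : Z), mv u⁻¹ hu' (mv u hu p) = p := by
    rintro u hu hu' ⟨⟨y, hy⟩, h⟩
    have ht := slab_move (r := r) L hr hu hy
    have hy' : u⁻¹ • u • y ∈ tube O d r k l := by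
      rw [inv_smul_smul]; exact ⟨hy.1, by have := hy.2.1; omega, by have := hy.2.2; omega⟩
    have e1 := I.fold_step L hkl hr hu' ht hy'
    have e2 := fold_step_hgt I L hkl hu' ht hy'
    rw [inv_smul_smul] at e1 e2
    have e0 : hgt d k l y = 0 := by
      simp only [hgt]; rw [if_neg (by have := hy.2.1; omega), if_neg (by have := hy.2.2; omega)]
    refine Prod.ext (Subtype.ext ?_) ?_
    · exact e1.trans (I.fold_eq hy)
    · change h + hgt d k l (u • y) + hgt d k l (u⁻¹ • I.fold (u • y)) = h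
      omega
  let ρ : ↥(S : Set G) → Equiv.Perm Z := fun s =>
    { toFun := mv s (Or.inl s.2)
      invFun := mv (s : G)⁻¹ (hinv (Or.inl s.2))
      left_inv := fun p => hcanc _ (Or.inl s.2) (hinv (Or.inl s.2)) p
      right_inv := fun p => by
        have h0 := hcanc _ (hinv (Or.inl s.2)) (hinv (hinv (Or.inl s.2))) p
        simpa only [inv_inv] using h0 }
  let P : FreeGroup (S : Set G) →* Equiv.Perm Z := FreeGroup.lift ρ
  let ev : FreeGroup (S : Set G) →* G := FreeGroup.lift (fun s : (S : Set G) => (s : G))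
  have hone : ∀ (s : (S : Set G)) (b : Bool) (p : Z),
      ((P (FreeGroup.mk [(s, b)]) p).1 : X) = I.fold (cond b (s : G) (s : G)⁻¹ • (p.1 : X)) ∧
      (P (FreeGroup.mk [(s, b)]) p).2 = p.2 + hgt d k l (cond b (s : G) (s : G)⁻¹ • (p.1 : X)) := by
    intro s b p
    cases b <;> simp [P, ρ, mv] <;> exact ⟨rfl, rfl⟩
  have hword : ∀ v : List (↥(S : Set G) × Bool), v.length ≤ r → ∀ p : Z,
      ev (FreeGroup.mk v) • (p.1 : X) ∈ O ∧
      k ≤ d (ev (FreeGroup.mk v) • (p.1 : X)) + v.length ∧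
      d (ev (FreeGroup.mk v) • (p.1 : X)) < l + v.length ∧
      ((P (FreeGroup.mk v) p).1 : X) = I.fold (ev (FreeGroup.mk v) • (p.1 : X)) ∧
      (P (FreeGroup.mk v) p).2 = p.2 + hgt d k l (ev (FreeGroup.mk v) • (p.1 : X)) := by
    intro v
    induction v with
    | nil =>
      rintro - ⟨⟨y, hy⟩, h⟩
      rw [← FreeGroup.one_eq_mk, map_one, map_one, one_smul, Equiv.Perm.one_apply, I.fold_eq hy]
      refine ⟨hy.1, by simpa using hy.2.1, by simpa using hy.2.2, rfl, ?_⟩
      simp only [hgt]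
      rw [if_neg (by have := hy.2.1; omega), if_neg (by have := hy.2.2; omega), add_zero]
    | cons a v ih =>
      intro hlen p
      rw [List.length_cons] at hlen
      obtain ⟨h0, h1, h2, h3, h4⟩ := ih (by omega) p
      have hsplit : FreeGroup.mk (a :: v) = FreeGroup.mk [a] * FreeGroup.mk v := by
        rw [FreeGroup.mul_mk]; rfl
      obtain ⟨s, b⟩ := a
      obtain ⟨f1, f2⟩ := hone s b (P (FreeGroup.mk v) p)
      have hu : cond b (s : G) (s : G)⁻¹ ∈ (S : Set G) ∨
          (cond b (s : G) (s : G)⁻¹)⁻¹ ∈ (S : Set G) := by cases b <;> simp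
      have hev : ev (FreeGroup.mk [(s, b)]) = cond b (s : G) (s : G)⁻¹ := by cases b <;> simp [ev]
      obtain ⟨g1, g2, g3⟩ := L.both hu h0
      rw [hsplit, map_mul, map_mul, mul_smul, hev, Equiv.Perm.mul_apply, List.length_cons]
      refine ⟨g1, by omega, by omega, ?_, ?_⟩
      · rw [f1, h3]
        exact I.fold_step L hkl hr hu ⟨h0, by omega, by omega⟩ ⟨g1, by omega, by omega⟩
      · rw [f2, h4, h3, add_assoc,
          fold_step_hgt I L hkl hu ⟨h0, by omega, by omega⟩ ⟨g1, by omega, by omega⟩]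
  have hker : ev.ker ≤ P.ker := by
    rw [← hR]
    refine Subgroup.normalClosure_le_normal fun w hw => ?_
    obtain ⟨v, hv, rfl⟩ := hlen w hw
    have h1 : ev (FreeGroup.mk v) = 1 := by
      have : FreeGroup.mk v ∈ ev.ker := hR ▸ Subgroup.subset_normalClosure hw
      exact this
    refine Equiv.ext fun p => ?_
    obtain ⟨-, -, -, e1, e2⟩ := hword v hv p
    rw [h1, one_smul] at e1 e2
    refine Prod.ext (Subtype.ext (e1.trans (I.fold_eq p.1.2))) (e2.trans ?_)
    simp only [hgt]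
    rw [if_neg (by have := p.1.2.2.1; omega), if_neg (by have := p.1.2.2.2; omega), add_zero]
    rfl
  let Φ : G →* Equiv.Perm Z := MonoidHom.liftOfSurjective ev hgen ⟨P, hker⟩
  have hΦ : ∀ w, Φ (ev w) = P w := fun w =>
    MonoidHom.liftOfRightInverse_comp_apply _ _ _ ⟨P, hker⟩ _
  -- the action commutes with the deck translations
  let τ : ℤ → Equiv.Perm Z := fun t => (Equiv.refl _).prodCongr (Equiv.addRight t)
  have hτ : ∀ (g : G) (t : ℤ) (p : Z), Φ g (p.1, p.2 + t) = ((Φ g p).1, (Φ g p).2 + t) := by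
    intro g t
    have hC : P.range ≤ Subgroup.centralizer {τ t} := by
      rw [show P.range = Subgroup.closure (Set.range ρ) from FreeGroup.range_lift_eq_closure,
        Subgroup.closure_le]
      rintro _ ⟨s, rfl⟩
      rw [SetLike.mem_coe, Subgroup.mem_centralizer_singleton_iff]
      refine Equiv.ext fun p => Prod.ext rfl ?_
      change p.2 + t + _ = p.2 + _ + t
      exact add_right_comm _ _ _
    obtain ⟨w, rfl⟩ := hgen g
    intro p
    have h := Subgroup.mem_centralizer_singleton_iff.mp (hC ⟨w, rfl⟩)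
    rw [hΦ]
    exact congrArg (fun q : Equiv.Perm Z => q p) h
  have hΦgen : ∀ (u : G) (hu : u ∈ (S : Set G) ∨ u⁻¹ ∈ (S : Set G)) (p : Z),
      Φ u p = mv u hu p := by
    intro u hu p
    rcases hu with hu' | hu'
    · have h := hΦ (FreeGroup.of ⟨u, hu'⟩)
      simp only [ev, P, FreeGroup.lift_apply_of] at h
      rw [h]; rfl
    · have h := hΦ (FreeGroup.of ⟨u⁻¹, hu'⟩)⁻¹
      simp only [ev, P, map_inv, FreeGroup.lift_apply_of, inv_inv] at h
      rw [h]
      refine Prod.ext (Subtype.ext ?_) ?_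
      · change I.fold (u⁻¹⁻¹ • (p.1 : X)) = I.fold (u • (p.1 : X)); rw [inv_inv]
      · change p.2 + hgt d k l (u⁻¹⁻¹ • (p.1 : X)) = p.2 + hgt d k l (u • (p.1 : X)); rw [inv_inv]
  -- descending one sheet
  let top : {z // z ∈ O ∧ d z = l} → slab O d k l := fun z =>
    ⟨I.η z.1, by
      have hA : z.1 ∈ annulus O d r l := ⟨z.2.1, by omega, by omega⟩
      have := I.η_mem _ hA
      have := shift_inv I hA
      exact ⟨(I.η_mem _ hA).1, by omega, by omega⟩⟩
  have hdown : ∀ z : {z // z ∈ O ∧ d z = l}, ∃ (g : G) (z' : {z // z ∈ O ∧ d z = l}),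
      ∀ h : ℤ, Φ g (top z, h) = (top z', h - 1) := by
    intro z
    have key : ∀ j, j ≤ l - k → ∃ g : G, ∃ p ∈ O, d p + j = l ∧
        ∀ h : ℤ, ((Φ g (top z, h)).1 : X) = I.fold p ∧
          (Φ g (top z, h)).2 = h - 1 + hgt d k l p := by
      intro j
      induction j with
      | zero =>
        refine fun _ => ⟨1, z.1, z.2.1, z.2.2, fun h => ?_⟩
        rw [map_one, Equiv.Perm.one_apply]
        simp only [AnnIso.fold, hgt, z.2.2, if_neg (show ¬ l < k by omega), le_refl, if_true, top]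
        exact ⟨trivial, by ring⟩
      | succ j ih =>
        intro hj
        obtain ⟨g, p, hp, hdp, hg⟩ := ih (by omega)
        obtain ⟨y, hy, u, hu, e, hdy⟩ := hpred p hp (by omega)
        have hpt : p ∈ tube O d r k l := ⟨hp, by omega, by omega⟩
        have hyt : u⁻¹ • p ∈ tube O d r k l := by
          rw [← e, inv_smul_smul]; exact ⟨hy, by omega, by omega⟩
        refine ⟨u⁻¹ * g, y, hy, by omega, fun h => ?_⟩
        obtain ⟨g1, g2⟩ := hg h
        rw [map_mul, Equiv.Perm.mul_apply, hΦgen _ (hinv hu)]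
        have e1 := I.fold_step L hkl hr (hinv hu) hpt hyt
        have e2 := fold_step_hgt I L hkl (hinv hu) hpt hyt
        rw [← e, inv_smul_smul, e] at e1 e2
        refine ⟨?_, ?_⟩
        · change I.fold (u⁻¹ • ((Φ g (top z, h)).1 : X)) = _
          rw [g1]; exact e1
        · change (Φ g (top z, h)).2 + hgt d k l (u⁻¹ • ((Φ g (top z, h)).1 : X)) = _
          rw [g1, g2]; omega
    obtain ⟨g, p, hp, hdp, hg⟩ := key (l - k) le_rfl
    have hA : p ∈ annulus O d r k := ⟨hp, by omega, by omega⟩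
    have hs := I.shift p hA
    refine ⟨g, ⟨I.θ p, (I.θ_mem p hA).1, by omega⟩, fun h => ?_⟩
    obtain ⟨g1, g2⟩ := hg h
    have hf : I.fold p = p := I.fold_eq ⟨hp, by omega, by omega⟩
    refine Prod.ext (Subtype.ext ?_) ?_
    · rw [g1, hf]; exact (I.ηθ p hA).symm
    · rw [g2]; simp only [hgt]
      rw [if_neg (by omega), if_neg (by omega), add_zero]
  choose gd next hnext using hdown
  have hiter : ∀ n : ℕ, ∃ g : G,
      Φ g (top ⟨z0, hz0, hdz0⟩, 0) = (top (next^[n] ⟨z0, hz0, hdz0⟩), -(n : ℤ)) := by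
    intro n
    induction n with
    | zero => exact ⟨1, by simp⟩
    | succ n ih =>
      obtain ⟨g, hg⟩ := ih
      refine ⟨gd (next^[n] ⟨z0, hz0, hdz0⟩) * g, ?_⟩
      rw [map_mul, Equiv.Perm.mul_apply, hg, hnext, Function.iterate_succ_apply']
      push_cast; ring_nf
  obtain ⟨m, n, hmn, heq⟩ := Finite.exists_ne_map_eq_of_infinite
    (fun n : ℕ => top (next^[n] ⟨z0, hz0, hdz0⟩))
  let y0 := top (next^[m] ⟨z0, hz0, hdz0⟩)
  let H : Subgroup G :=
    { carrier := {g | (Φ g (y0, 0)).1 = y0}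
      one_mem' := by simp
      mul_mem' := fun {a b} ha hb => by
        simp only [Set.mem_ofPred_eq] at ha hb ⊢
        have e : Φ b (y0, 0) = (y0, 0 + (Φ b (y0, 0)).2) := Prod.ext hb (by simp)
        rw [map_mul, Equiv.Perm.mul_apply, e, hτ a (Φ b (y0, 0)).2 (y0, 0)]
        exact ha
      inv_mem' := fun {a} ha => by
        simp only [Set.mem_ofPred_eq] at ha ⊢
        have e : Φ a (y0, 0) = (y0, 0 + (Φ a (y0, 0)).2) := Prod.ext ha (by simp)
        have h1 : Φ a⁻¹ (Φ a (y0, 0)) = (y0, 0) := by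
          rw [map_inv]; exact (Φ a).symm_apply_apply _
        rw [e] at h1
        have h2 := hτ a⁻¹ (Φ a (y0, 0)).2 (y0, 0)
        simp only at h2
        rw [h2] at h1
        exact congrArg Prod.fst h1 }
  let f : H →* Multiplicative ℤ :=
    MonoidHom.mk' (fun g => Multiplicative.ofAdd (Φ g.1 (y0, 0)).2) fun a b => by
      have hb : (Φ b.1 (y0, 0)).1 = y0 := b.2
      have e : Φ b.1 (y0, 0) = (y0, 0 + (Φ b.1 (y0, 0)).2) := Prod.ext hb (by simp)
      rw [← ofAdd_add, Subgroup.coe_mul, map_mul, Equiv.Perm.mul_apply, e,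
        hτ a.1 (Φ b.1 (y0, 0)).2 (y0, 0)]
      simp
  have hsame : ∀ a b : G, (Φ a (y0, 0)).1 = (Φ b (y0, 0)).1 → a⁻¹ * b ∈ H := by
    intro a b hab
    change (Φ (a⁻¹ * b) (y0, 0)).1 = y0
    let t := (Φ b (y0, 0)).2 - (Φ a (y0, 0)).2
    have e : Φ b (y0, 0) = ((Φ a (y0, 0)).1, (Φ a (y0, 0)).2 + t) :=
      Prod.ext hab.symm (by simp [t])
    rw [map_mul, Equiv.Perm.mul_apply, e, ← hτ a t (y0, 0), map_inv,
      show (Φ a)⁻¹ (Φ a (y0, 0 + t)) = (y0, 0 + t) from (Φ a).symm_apply_apply _]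
  refine ⟨H, ?_, f, ?_⟩
  · have : Finite (G ⧸ H) := by
      refine Finite.of_injective (fun q : G ⧸ H => (Φ q.out (y0, 0)).1) fun a b hab => ?_
      have h := QuotientGroup.eq.mpr (hsame a.out b.out hab)
      rwa [QuotientGroup.out_eq', QuotientGroup.out_eq'] at h
    exact Subgroup.finiteIndex_of_finite_quotient
  · intro hf
    obtain ⟨a, ha⟩ := hiter m
    obtain ⟨b, hb⟩ := hiter n
    have ha' : Φ a⁻¹ (y0, -(m : ℤ)) = (top ⟨z0, hz0, hdz0⟩, 0) := by
      rw [map_inv, ← ha]; exact (Φ a).symm_apply_apply _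
    have hc : Φ (b * a⁻¹) (y0, -(m : ℤ)) = (y0, -(n : ℤ)) := by
      rw [map_mul, Equiv.Perm.mul_apply, ha', hb]
      exact Prod.ext heq.symm rfl
    have hc0 : Φ (b * a⁻¹) (y0, 0) = (y0, (m : ℤ) - n) := by
      have h := hτ (b * a⁻¹) (m : ℤ) (y0, -(m : ℤ))
      rw [hc] at h
      simp only [neg_add_cancel] at h
      rw [h, neg_add_eq_sub]
    have hmem : b * a⁻¹ ∈ H := congrArg Prod.fst hc0
    have h1 := DFunLike.congr_fun hf ⟨_, hmem⟩
    simp only [f, MonoidHom.mk'_apply, MonoidHom.one_apply, ofAdd_eq_one, hc0] at h1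
    omega

end Vale.Agent.P192.Growth
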