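import Vale.Agent.P196.Orbit

/-! Infinitely many bounded spheres in an orbit yield two isomorphic annuli. -/

namespace Vale.Agent.P192.Growth

open Finset Vale.Agent.P196

variable {G X : Type*} [Group G] [MulAction G X]

theorem exists_gluing [hfp : Group.IsFinitelyPresented G] (S : Finset G)
    (hS : Subgroup.closure (S : Set G) = ⊤) (x : X) (C : ℕ)
    (hsphere : ∀ N : ℕ, ∃ n, N ≤ n ∧
      (ball (S : Set G) x (n + 1) \ ball (S : Set G) x n).ncard ≤ C) :
    {y : X | ∃ g : G, g • x = y}.Finite ∨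
    ∃ (O : Set X) (d : X → ℕ) (r k l : ℕ) (_ : AnnIso (S : Set G) O d r k l) (R : Set (FreeGroup (S : Set G))),
      Levels (S : Set G) O d ∧ k + 2 * r < l ∧ 1 ≤ r ∧ (slab O d k l).Finite ∧
      Subgroup.normalClosure R = (FreeGroup.lift (fun s : (S : Set G) => (s : G))).ker ∧
      (∀ w ∈ R, ∃ v : List (↥(S : Set G) × Bool), v.length ≤ r ∧ FreeGroup.mk v = w) ∧
      Function.Surjective (FreeGroup.lift (fun s : (S : Set G) => (s : G))) ∧
      (∀ z ∈ O, 0 < d z → ∃ y ∈ O, ∃ u, (u ∈ (S : Set G) ∨ u⁻¹ ∈ (S : Set G)) ∧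
        u • y = z ∧ d y + 1 = d z) ∧
      ∃ z ∈ O, d z = l := by
  classical
  let O : Set X := {y | ∃ n, y ∈ ball (S : Set G) x n}
  let d : X → ℕ := fun y => sInf {n | y ∈ ball (S : Set G) x n}
  have hd : ∀ y ∈ O, y ∈ ball (S : Set G) x (d y) := fun y hy => Nat.sInf_mem hy
  have L : Levels (S : Set G) O d := by
    constructor
    intro u hu y hy
    obtain ⟨l, hl, hlS, e⟩ := hd y hy
    have h : u • y ∈ ball (S : Set G) x (d y + 1) :=
      ⟨u :: l, by simpa using hl, fun g hg => by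
        rcases List.mem_cons.mp hg with rfl | hg
        · exact hu
        · exact hlS g hg, by rw [List.prod_cons, mul_smul, e]⟩
    exact ⟨⟨_, h⟩, Nat.sInf_le h⟩
  have hxO : x ∈ O := ⟨0, [], le_rfl, by simp, by simp⟩
  have hinvariant : ∀ g : G, ∀ y ∈ O, g • y ∈ O := by
    intro g
    have hg : g ∈ Subgroup.closure (S : Set G) := hS ▸ Subgroup.mem_top g
    induction hg using Subgroup.closure_induction_left with
    | one => intro y hy; rwa [one_smul]
    | mul_left a ha b hb ih =>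
      intro y hy; rw [mul_smul]; exact (L.step a (Or.inl ha) _ (ih y hy)).1
    | inv_mul_cancel a ha b hb ih =>
      intro y hy; rw [mul_smul]; exact (L.step _ (Or.inr (by simpa using ha)) _ (ih y hy)).1
  by_cases hOfin : O.Finite
  · left
    refine hOfin.subset ?_
    rintro y ⟨g, rfl⟩; exact hinvariant g x hxO
  right
  -- levels
  have hpred : ∀ z ∈ O, 0 < d z → ∃ y ∈ O, ∃ u, (u ∈ (S : Set G) ∨ u⁻¹ ∈ (S : Set G)) ∧
      u • y = z ∧ d y + 1 = d z := by
    intro z hz hpos
    obtain ⟨l, hl, hlS, e⟩ := hd z hz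
    cases l with
    | nil =>
      simp only [List.prod_nil, one_smul] at e
      subst e
      have : d x ≤ 0 := Nat.sInf_le ⟨[], le_rfl, by simp, by simp⟩
      omega
    | cons u l =>
      rw [List.length_cons] at hl
      rw [List.prod_cons, mul_smul] at e
      have hy : l.prod • x ∈ ball (S : Set G) x (d z - 1) :=
        ⟨l, by omega, fun g hg => hlS g (List.mem_cons_of_mem _ hg), rfl⟩
      have h1 : d (l.prod • x) ≤ d z - 1 := Nat.sInf_le hy
      have h2 := (L.step u (hlS u (by simp)) _ ⟨_, hy⟩).2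
      rw [e] at h2
      exact ⟨_, ⟨_, hy⟩, u, hlS u (by simp), e, by omega⟩
  -- presentation
  let ev : FreeGroup (S : Set G) →* G := FreeGroup.lift (fun s : (S : Set G) => (s : G))
  have hev : Function.Surjective ev := by
    rw [← MonoidHom.range_eq_top, eq_top_iff, ← hS, Subgroup.closure_le]
    intro s hs
    exact ⟨FreeGroup.of ⟨s, hs⟩, by simp [ev]⟩
  have : Finite (S : Set G) := S.finite_toSet
  obtain ⟨R, hRfin, hR⟩ := Vale.Agent.P192.ker_fng ev hev
  let r := hRfin.toFinset.sup (fun w => w.toWord.length) + 1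
  have hlen : ∀ w ∈ R, ∃ v : List (↥(S : Set G) × Bool), v.length ≤ r ∧ FreeGroup.mk v = w :=
    fun w hw => ⟨w.toWord, le_trans (Finset.le_sup (f := fun w => w.toWord.length)
      (hRfin.mem_toFinset.mpr hw)) (Nat.le_succ _), FreeGroup.mk_toWord⟩
  -- infinitely many narrow annuli
  let A : ℕ → Set X := fun k => annulus O d r k
  have hAball : ∀ k, A k ⊆ ball (S : Set G) x (k + r) := by
    rintro k y ⟨hy, -, h⟩
    obtain ⟨l, hl, hlS, e⟩ := hd y hy
    exact ⟨l, hl.trans h, hlS, e⟩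
  have hAfin : ∀ k, (A k).Finite := fun k => (ball_finite S.finite_toSet x _).subset (hAball k)
  let W := ball (S : Set G) (1 : G) (2 * r)
  have hWfin : W.Finite := ball_finite S.finite_toSet _ _
  let M := W.ncard * C
  have hnarrow : {k | (A k).ncard ≤ M}.Infinite := by
    refine Set.infinite_of_forall_exists_gt fun N => ?_
    obtain ⟨n, hn, hsph⟩ := hsphere N
    refine ⟨n + 1 + r, ?_, by omega⟩
    let Sp := ball (S : Set G) x (n + 1) \ ball (S : Set G) x n
    have hSp : Sp.Finite := (ball_finite S.finite_toSet x _).sdiff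
    have hdesc : ∀ j, ∀ y ∈ O, d y = n + 1 + j → ∃ l : List G, l.length ≤ j ∧
        (∀ g ∈ l, g ∈ (S : Set G) ∨ g⁻¹ ∈ (S : Set G)) ∧ ∃ z ∈ Sp, l.prod • z = y := by
      intro j
      induction j with
      | zero =>
        intro y hy hdy
        refine ⟨[], le_rfl, by simp, y, ⟨?_, fun h => ?_⟩, by simp⟩
        · have := hd y hy; rwa [hdy] at this
        · have : d y ≤ n := Nat.sInf_le h
          omega
      | succ j ih =>
        intro y hy hdy
        obtain ⟨y', hy', u, hu, e, hdy'⟩ := hpred y hy (by omega)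
        obtain ⟨l, hl, hlS, z, hz, e'⟩ := ih y' hy' (by omega)
        exact ⟨u :: l, by simpa using hl, fun g hg => (List.mem_cons.mp hg).elim
          (fun h => h ▸ hu) (hlS g), z, hz, by rw [List.prod_cons, mul_smul, e', e]⟩
    have hsub : A (n + 1 + r) ⊆ (fun q : G × X => q.1 • q.2) '' (W ×ˢ Sp) := by
      rintro y ⟨hy, h1, h2⟩
      obtain ⟨j, hj⟩ := Nat.exists_eq_add_of_le (show n + 1 ≤ d y by omega)
      obtain ⟨l, hl, hlS, z, hz, e⟩ := hdesc j y hy hj
      exact ⟨(l.prod, z), ⟨⟨l, by omega, hlS, by simp⟩, hz⟩, e⟩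
    refine (Set.ncard_le_ncard hsub ((hWfin.prod hSp).image _)).trans ?_
    refine (Set.ncard_image_le (hWfin.prod hSp)).trans ?_
    rw [Set.ncard_prod]
    exact Nat.mul_le_mul_left _ hsph
  -- labelled patterns of narrow annuli
  have hemb : ∀ k : {k | (A k).ncard ≤ M}, ∃ e : X → Fin (M + 1), Set.InjOn e (A k.1) := by
    rintro ⟨k, hk⟩
    obtain ⟨σ⟩ : Nonempty ((hAfin k).toFinset ↪ Fin (M + 1)) :=
      Function.Embedding.nonempty_of_card_le (by
        have := Set.ncard_eq_toFinset_card _ (hAfin k)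
        simp only [Set.mem_ofPred_eq] at hk
        simp; omega)
    refine ⟨fun y => if h : y ∈ A k then σ ⟨y, (hAfin k).mem_toFinset.mpr h⟩ else 0, ?_⟩
    intro a ha b hb hab
    simp only [dif_pos ha, dif_pos hb] at hab
    simpa using σ.injective hab
  choose e he using hemb
  let pat : {k | (A k).ncard ≤ M} → (Fin (M + 1) → Fin (2 * r + 1) → Prop) ×
      (↥(S : Set G) → Fin (M + 1) → Fin (M + 1) → Prop) := fun k =>
    (fun i o => ∃ y ∈ A k.1, e k y = i ∧ d y + r = k.1 + o,
     fun s i j => ∃ a ∈ A k.1, ∃ b ∈ A k.1, e k a = i ∧ e k b = j ∧ (s : G) • a = b)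
  have : Infinite {k | (A k).ncard ≤ M} := hnarrow.to_subtype
  obtain ⟨p, hp⟩ := Finite.exists_infinite_fiber pat
  obtain ⟨⟨⟨k, hk⟩, hpk⟩⟩ : Nonempty (pat ⁻¹' {p}) := inferInstance
  have hinf : ((fun q : {k | (A k).ncard ≤ M} => q.1) '' (pat ⁻¹' {p})).Infinite :=
    (Set.infinite_coe_iff.mp hp).image Subtype.val_injective.injOn
  obtain ⟨l, ⟨⟨l', hl⟩, hpl, rfl⟩, hkl⟩ := hinf.exists_gt (k + 2 * r)
  simp only at hkl
  have heq : pat ⟨k, hk⟩ = pat ⟨l', hl⟩ := (Set.mem_singleton_iff.mp hpk).trans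
    (Set.mem_singleton_iff.mp hpl).symm
  let K : {k | (A k).ncard ≤ M} := ⟨k, hk⟩
  let K' : {k | (A k).ncard ≤ M} := ⟨l', hl⟩
  have htrans : ∀ (P Q : {k | (A k).ncard ≤ M}), pat P = pat Q → ∀ y ∈ A P.1,
      ∃ z ∈ A Q.1, e Q z = e P y ∧ d z + P.1 = d y + Q.1 := by
    intro P Q hPQ y hy
    have hy' : y ∈ A P.1 := hy
    obtain ⟨-, h1, h2⟩ := hy
    have h3 : (pat P).1 (e P y) ⟨d y + r - P.1, by omega⟩ :=
      ⟨y, hy', rfl, by simp; omega⟩
    rw [hPQ] at h3
    obtain ⟨z, hz, hez, hdz⟩ := h3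
    exact ⟨z, hz, hez, by simp at hdz; omega⟩
  choose θ hθm hθe hθd using htrans K K' heq
  choose η hηm hηe hηd using htrans K' K heq.symm
  let I : AnnIso (S : Set G) O d r k l' :=
    { θ := fun y => if h : y ∈ A k then θ y h else y
      η := fun y => if h : y ∈ A l' then η y h else y
      θ_mem := fun y hy => by rw [dif_pos hy]; exact hθm y hy
      η_mem := fun y hy => by rw [dif_pos hy]; exact hηm y hy
      ηθ := fun y hy => by
        rw [dif_pos hy, dif_pos (hθm y hy)]
        exact he K (hηm _ (hθm y hy)) hy ((hηe _ _).trans (hθe y hy))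
      θη := fun y hy => by
        rw [dif_pos hy, dif_pos (hηm y hy)]
        exact he K' (hθm _ (hηm y hy)) hy ((hθe _ _).trans (hηe y hy))
      shift := fun y hy => by rw [dif_pos hy]; exact hθd y hy
      equiv := fun u hu a ha b hb => by
        rw [dif_pos ha, dif_pos hb]
        constructor
        · intro hab
          have h3 : (pat K).2 ⟨u, hu⟩ (e K a) (e K b) := ⟨a, ha, b, hb, rfl, rfl, hab⟩
          rw [heq] at h3
          obtain ⟨a', ha', b', hb', ea, eb, h⟩ := h3
          rw [he K' (hθm a ha) ha' ((hθe a ha).trans ea.symm),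
            he K' (hθm b hb) hb' ((hθe b hb).trans eb.symm)]
          exact h
        · intro hab
          have h3 : (pat K').2 ⟨u, hu⟩ (e K' (θ a ha)) (e K' (θ b hb)) :=
            ⟨_, hθm a ha, _, hθm b hb, rfl, rfl, hab⟩
          rw [← heq, hθe a ha, hθe b hb] at h3
          obtain ⟨a', ha', b', hb', ea, eb, h⟩ := h3
          rw [he K ha ha' ea.symm, he K hb hb' eb.symm]
          exact h }
  have hfin : (slab O d k l').Finite := (ball_finite S.finite_toSet x l').subset fun y hy => by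
    obtain ⟨w, hw, hwS, ew⟩ := hd y hy.1
    exact ⟨w, by have := hy.2.2; omega, hwS, ew⟩
  refine ⟨O, d, r, k, l', I, R, L, hkl, Nat.le_add_left 1 _, hfin, hR, hlen, hev, hpred, ?_⟩
  obtain ⟨z, hz, hlz⟩ : ∃ z ∈ O, l' ≤ d z := by
    by_contra! h
    refine hOfin ((ball_finite S.finite_toSet x l').subset fun z hz => ?_)
    obtain ⟨w, hw, hwS, e⟩ := hd z hz
    exact ⟨w, hw.trans (h z hz).le, hwS, e⟩
  suffices h : ∀ j, ∀ z ∈ O, d z = l' + j → ∃ z ∈ O, d z = l' from h (d z - l') z hz (by omega)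
  intro j
  induction j with
  | zero => exact fun z hz h => ⟨z, hz, h⟩
  | succ j ih =>
    intro z hz hdz
    obtain ⟨y, hy, u, -, -, hdy⟩ := hpred z hz (by omega)
    exact ih y hy (by omega)

end Vale.Agent.P192.Growth
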