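import Vale.Agent.P192.Growth.Cover

/-! Linear growth gives bounded spheres; groups without finite quotients fix such orbits. -/

namespace Vale.Agent.P192.Growth

open Vale.Agent.P196

variable {G X : Type*} [Group G] [MulAction G X]

/-- Linear growth along a subsequence gives infinitely many bounded spheres. -/
theorem sphere_of_linear (S : Finset G) (x : X) (C : ℕ)
    (hgrowth : ∀ N : ℕ, ∃ n, N ≤ n ∧ (ball (S : Set G) x n).ncard ≤ C * n) (N : ℕ) :
    ∃ n, N ≤ n ∧ (ball (S : Set G) x (n + 1) \ ball (S : Set G) x n).ncard ≤ C := by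
  by_contra! h
  have hfin := fun m => ball_finite (S := (S : Set G)) S.finite_toSet x m
  have hlow : ∀ j, (C + 1) * j ≤ (ball (S : Set G) x (N + j)).ncard := by
    intro j
    induction j with
    | zero => simp
    | succ j ih =>
      have hmono : ball (S : Set G) x (N + j) ⊆ ball (S : Set G) x (N + j + 1) :=
        fun y ⟨l, hl, hlS, e⟩ => ⟨l, by omega, hlS, e⟩
      have h1 := Set.ncard_sdiff_add_ncard_of_subset hmono (hfin _)
      have h2 := h (N + j) (by omega)
      rw [show N + (j + 1) = N + j + 1 by omega, Nat.mul_succ]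
      omega
  obtain ⟨n, hn, hle⟩ := hgrowth ((C + 1) * N + 1)
  obtain ⟨j, rfl⟩ := Nat.exists_eq_add_of_le (show N ≤ n by nlinarith)
  have := hlow j
  nlinarith

/-- Without proper finite-index subgroups, a point with infinitely many bounded spheres is fixed. -/
theorem fixed_of_bounded_spheres [Group.IsFinitelyPresented G]
    (hnofi : ∀ H : Subgroup G, H.FiniteIndex → H = ⊤) (S : Finset G)
    (hS : Subgroup.closure (S : Set G) = ⊤) (x : X) (C : ℕ)
    (hsphere : ∀ N : ℕ, ∃ n, N ≤ n ∧
      (ball (S : Set G) x (n + 1) \ ball (S : Set G) x n).ncard ≤ C) :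
    ∀ g : G, g • x = x := by
  by_cases hfin : {y : X | ∃ g : G, g • x = y}.Finite
  · have hfin' : Finite (MulAction.orbit G x) :=
      (hfin.subset (by rintro y ⟨g, rfl⟩; exact ⟨g, rfl⟩)).to_subtype
    have hfi : (MulAction.stabilizer G x).FiniteIndex := ⟨by
      have : Nonempty (MulAction.orbit G x) := ⟨⟨x, MulAction.mem_orbit_self x⟩⟩
      rw [Subgroup.index, ← Nat.card_congr (MulAction.orbitEquivQuotientStabilizer G x)]
      exact Nat.card_pos.ne'⟩
    intro g
    have : g ∈ MulAction.stabilizer G x := by rw [hnofi _ hfi]; trivial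
    exact this
  exfalso
  obtain ⟨H, hH, f, hf⟩ := virtually_indicable S hS x C hsphere hfin
  obtain rfl := hnofi H hH
  obtain ⟨g, hg⟩ : ∃ g, f g ≠ 1 := by
    by_contra! h
    exact hf (MonoidHom.ext h)
  have ha : Multiplicative.toAdd (f g) ≠ 0 := fun h => hg (Multiplicative.toAdd.injective h)
  set n := (Multiplicative.toAdd (f g)).natAbs + 1
  let q : G →* Multiplicative (ZMod n) := ((Int.castAddHom (ZMod n)).toMultiplicative.comp f).comp
    Subgroup.topEquiv.symm.toMonoidHom
  have hker : q.ker.FiniteIndex := ⟨by rw [Subgroup.index_ker]; exact Nat.card_pos.ne'⟩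
  have hg' : g.1 ∈ q.ker := by rw [hnofi _ hker]; trivial
  have : ((Multiplicative.toAdd (f g) : ℤ) : ZMod n) = 0 := congrArg Multiplicative.toAdd
    (show q g.1 = 1 from hg')
  rw [ZMod.intCast_zmod_eq_zero_iff_dvd, Int.natCast_dvd] at this
  have := Nat.le_of_dvd (by omega) this
  omega

end Vale.Agent.P192.Growth
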